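import Crest.Prelude.Def_QuadricBundle

/-!
# Row 258 (S0396): an ample rank two bundle on ℙ¹ × ℙ¹ without Griffiths positive metric

Shared definitions.  Chart coordinates are `p = (X, Y) = (p 0, p 1)`; write `x = X^3`, `y = Y^3`.
The bundle `gE d` depends on a parameter `d : ℂ` (it is ample for `d ≠ 0`, `d^2 ≠ 1`, and not
Griffiths positive for `d` small).
-/

noncomputable section

namespace Crest.Agent.R258

open Crest.AlgGeometry.QuadricBundle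
open scoped ComplexConjugate

/-- Extension term of the bundle. Charts `(0,0)`, `(1,1)` are of type 0, the others of type 1. -/
def hh (d : ℂ) (α : Chart) (X Y : ℂ) : ℂ :=
  if α.1 = α.2 then Y ^ 8 + d * (Y⁻¹) ^ 7 + X ^ 3 * (Y⁻¹ + d * Y ^ 14)
  else X ^ 3 * (Y ^ 8 + d * (Y⁻¹) ^ 7) + Y⁻¹ + d * Y ^ 14

/-- transition for the flip of the second factor -/
def TY (d : ℂ) (α : Chart) (p : Fin 2 → ℂ) : Matrix (Fin 2) (Fin 2) ℂ :=
  !![((p 1)⁻¹) ^ 10, -(hh d α (p 0) (p 1)); 0, -((p 1) ^ 17)]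

/-- transition for the flip of the first factor -/
def DX (p : Fin 2 → ℂ) : Matrix (Fin 2) (Fin 2) ℂ :=
  !![(p 0) ^ 5, 0; 0, (p 0) ^ 2]

/-- the bundle -/
def gE (d : ℂ) : Transition 2 := fun α β p =>
  (if α.2 = β.2 then 1 else TY d α p) * (if α.1 = β.1 then 1 else DX p)

/-- Sections of `Sʸᵐⁿ E ⊗ O(a, b)`, arbitrary integer twist. `IsTwSec g n (-k) (-k) Q` is
`IsGlobalSection g n k Q`. -/
structure IsTwSec {r : ℕ} (g : Transition r) (n : ℕ) (a b : ℤ)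
    (Q : Chart → (Fin 2 → ℂ) → MvPolynomial (Fin r) ℂ) : Prop where
  homog : ∀ α p, (Q α p).IsHomogeneous n
  diff : ∀ α (m : Fin r →₀ ℕ), Differentiable ℂ (fun p => MvPolynomial.coeff m (Q α p))
  compat : ∀ α β, ∀ p ∈ overlap α β,
    Q α p = lineTrans a b α β p • frameSubst (g α β p) (Q β (tau α β p))

/-- Vector form of a section of `E ⊗ O(a, b)`: frame coordinates `s α p : Fin 2 → ℂ`. -/
structure IsVecSec (g : Transition 2) (a b : ℤ)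
    (s : Chart → (Fin 2 → ℂ) → (Fin 2 → ℂ)) : Prop where
  diff : ∀ α i, Differentiable ℂ (fun p => s α p i)
  compat : ∀ α β, ∀ p ∈ overlap α β,
    s α p = lineTrans a b α β p • (g α β p).mulVec (s β (tau α β p))

/-- the linear form (degree one polynomial) with coefficient vector `v` -/
def lin (v : Fin 2 → ℂ) : MvPolynomial (Fin 2) ℂ :=
  MvPolynomial.C (v 0) * MvPolynomial.X 0 + MvPolynomial.C (v 1) * MvPolynomial.X 1

/-- The three sections of `E(-2,1)`, type 0 formula, in terms of `x = X^3`, `y = Y^3`. -/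
def Av0 (d x y : ℂ) (i : Fin 3) : Fin 2 → ℂ :=
  (![![-d * y ^ 2 - d ^ 2 * x * y ^ 4, 1 - d * y ^ 5],
     ![1 + d * x * y ^ 2, y ^ 3],
     ![y ^ 3 + x * (1 - d ^ 2 + d * y ^ 5), y ^ 6 - d * y]] : Fin 3 → Fin 2 → ℂ) i

/-- type 1 formula -/
def Av1 (d x y : ℂ) (i : Fin 3) : Fin 2 → ℂ :=
  (![![-d * x * y ^ 2 - d ^ 2 * y ^ 4, 1 - d * y ^ 5],
     ![x + d * y ^ 2, y ^ 3],
     ![x * y ^ 3 + 1 - d ^ 2 + d * y ^ 5, y ^ 6 - d * y]] : Fin 3 → Fin 2 → ℂ) i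

/-- The three sections of `E(-2,1)` on all charts: on `(0,0)`: `Av0 i`, on `(1,0)`: `Av1 i`,
on `(0,1)`: `-Av1 (2-i)`, on `(1,1)`: `-Av0 (2-i)`. -/
def secA (d : ℂ) (i : Fin 3) : Chart → (Fin 2 → ℂ) → (Fin 2 → ℂ) := fun α p =>
  if α.2 = 0 then
    (if α.1 = 0 then Av0 d (p 0 ^ 3) (p 1 ^ 3) i else Av1 d (p 0 ^ 3) (p 1 ^ 3) i)
  else
    (if α.1 = 0 then -Av1 d (p 0 ^ 3) (p 1 ^ 3) (Fin.rev i)
      else -Av0 d (p 0 ^ 3) (p 1 ^ 3) (Fin.rev i))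

/-- The three sections of `E(1,-2)`, type 0 formula, in terms of `x = X^3`, `y = Y^3`. -/
def Bv0 (d x y : ℂ) (i : Fin 3) : Fin 2 → ℂ :=
  (![![y ^ 2 + d * x * y ^ 4 - d * (1 - d ^ 2) * x ^ 2 * y, y ^ 5 - d - (1 - d ^ 2) * x * y ^ 2],
     ![y + d * x * y ^ 3 - d * x ^ 2, y ^ 4 - x * y],
     ![-(1 - d ^ 2) - d * (2 - d ^ 2) * x * y ^ 2 - d ^ 2 * x ^ 2 * y ^ 4,
       -(1 - d ^ 2) * y ^ 3 + x * (1 - d * y ^ 5)]] : Fin 3 → Fin 2 → ℂ) i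

/-- type 1 formula (this is the expression on the chart `(1,0)`) -/
def Bv1 (d x y : ℂ) (i : Fin 3) : Fin 2 → ℂ :=
  (![![-d * (1 - d ^ 2) * y + d * x * y ^ 4 + x ^ 2 * y ^ 2,
       -(1 - d ^ 2) * y ^ 2 - d * x + x * y ^ 5],
     ![-d + d * x * y ^ 3 + x ^ 2 * y, -y + x * y ^ 4],
     ![-d ^ 2 * y ^ 4 - d * (2 - d ^ 2) * x * y ^ 2 - (1 - d ^ 2) * x ^ 2,
       1 - d * y ^ 5 - (1 - d ^ 2) * x * y ^ 3]] : Fin 3 → Fin 2 → ℂ) i

/-- signs for the reversed index on the charts with second index `1`; see `secB` -/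
def sgB (i : Fin 3) : ℂ := (![-1, 1, -1] : Fin 3 → ℂ) i

/-- The three sections of `E(1,-2)` on all charts: on `(0,0)`: `Bv0 i`, on `(1,0)`: `Bv1 i`,
on `(0,1)`: `sgB i • Bv1 (2-i)`, on `(1,1)`: `sgB i • Bv0 (2-i)`. -/
def secB (d : ℂ) (i : Fin 3) : Chart → (Fin 2 → ℂ) → (Fin 2 → ℂ) := fun α p =>
  if α.2 = 0 then
    (if α.1 = 0 then Bv0 d (p 0 ^ 3) (p 1 ^ 3) i else Bv1 d (p 0 ^ 3) (p 1 ^ 3) i)
  else
    (if α.1 = 0 then sgB i • Bv1 d (p 0 ^ 3) (p 1 ^ 3) (Fin.rev i)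
      else sgB i • Bv0 d (p 0 ^ 3) (p 1 ^ 3) (Fin.rev i))

/-! ### The metric side -/

/-- pairing of a covector with a vector -/
def cov (w v : Fin 2 → ℂ) : ℂ := w 0 * v 0 + w 1 * v 1

/-- `Bd H α p w K`: the covector `w` (in frame coordinates at the point `p` of the chart `α`) has
dual norm at most `K`. -/
def Bd (H : MetricData 2) (α : Chart) (p : Fin 2 → ℂ) (w : Fin 2 → ℂ) (K : ℝ) : Prop :=
  ∀ v : Fin 2 → ℂ, ‖cov w v‖ ≤ K * Real.sqrt (hNormSq H α p v)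

/-- the (almost holomorphic) covector field `ψ`: type 0 formula -/
def psi0 (d x y : ℂ) : Fin 2 → ℂ := ![y ^ 3 - x, -(1 + d * x * y ^ 2)]

/-- type 1 formula -/
def psi1 (d x y : ℂ) : Fin 2 → ℂ := ![1 - x * y ^ 3, x ^ 2 + d * x * y ^ 2]

/-- the covector field `ψ` on the chart `α` -/
def psi (d : ℂ) (α : Chart) (p : Fin 2 → ℂ) : Fin 2 → ℂ :=
  if α.1 = α.2 then psi0 d (p 0 ^ 3) (p 1 ^ 3) else psi1 d (p 0 ^ 3) (p 1 ^ 3)

/-- the two basis covectors -/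
def eps (i : Fin 2) : Fin 2 → ℂ := fun j => if j = i then 1 else 0

/-- All basis covectors on all four closed unit polydiscs have dual norm at most `M`. -/
def AllBd (H : MetricData 2) (M : ℝ) : Prop :=
  ∀ (α : Chart) (p : Fin 2 → ℂ), ‖p 0‖ ≤ 1 → ‖p 1‖ ≤ 1 → ∀ i, Bd H α p (eps i) M

end Crest.Agent.R258
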